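import Vale.Agent.P356.Bdl.B1

open Vale.Agent.P356

/-- (A) Area law for every gapped unfrustrated Ising Hamiltonian on the square, in arbitrary
transverse fields and compatible longitudinal fields, for every region.
(B) Entanglement spread law for every gapped Hamiltonian on the square: variance, exponential
tails and comparison of the entropy with any single eigenvalue of the reduced state. -/
theorem Vale.Agent.Results.P356.IsingAndSpread.result :
    (∀ R : ℕ, ∃ C : ℝ, ∀ J Δ : ℝ, 0 < J → 0 < Δ → ∀ (L : ℕ) (H : Op (Site L) 2),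
      H ∈ UnfrustratedIsing L → Admissible L 2 R J H →
      ∀ (E : ℝ) (Ω : Conf (Site L) 2 → ℂ), GappedGround H Δ E Ω →
      ∀ A : Finset (Site L), entropyOf A Ω ≤ C * (J / Δ) * bdry A) ∧
    (∀ q R : ℕ, 1 ≤ q → ∃ C : ℝ, ∀ J Δ : ℝ, 0 < J → 0 < Δ →
      ∀ (L : ℕ) (H : Op (Site L) q), Admissible L q R J H →
      ∀ (E : ℝ) (Ω : Conf (Site L) q → ℂ), GappedGround H Δ E Ω →
      ∀ A : Finset (Site L), SpreadOf A Ω (C * (J / Δ) * bdry A)) :=
  ⟨fun R => ⟨ising_const R, fun _ _ hJ hΔ _ _ hI hA _ _ hg A => ising_bound hJ hΔ hI hA hg A⟩,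
  fun q R hq => ⟨spread_const q R, fun _ _ hJ hΔ _ _ hA _ _ hg A =>
    spread_law hJ hΔ hq hA hg A⟩⟩
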